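import Vale.Agent.Lib.P183.W22Main

namespace Vale.Agent.Results.P183.ChordRepresentable

open Vale.Agent.Lib.P183

/-- The seven-element lattice `Chord7` (least element `bot`, greatest element `top`, and five
further elements `j1`, `k`, `m2`, `m1`, `j2` with `j1 < k < m2`, `j1 < m1`, `j2 < m2` and no
other strict comparabilities among them) is representable: it is isomorphic to the lattice of
all congruences of a finite algebra.  The algebra exhibited in the proof has 96 elements and
five unary operations (four permutations and one two-valued map); its congruences are verified
by kernel-checked certificates. -/
theorem result : Representable Chord7 :=
  W22.chord7_representable

end Vale.Agent.Results.P183.ChordRepresentable
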