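import Vale.Agent.Lib.P183.M311Alg
import Vale.Agent.Lib.P183.M2111Alg
import Vale.Agent.Lib.P183.M221Alg
import Vale.Agent.Lib.P183.MIMain
import Vale.Agent.Lib.P183.PentaPlusAlg
import Vale.Agent.Lib.P183.W10Main

namespace Vale.Agent.Results.P183.FiveLattices

open Vale.Agent.Lib.P183

/-- Five seven-element lattices are representable: each is isomorphic to the lattice of all
congruences of a finite algebra.  Each has a least element `bot`, a greatest element `top` and
five further elements.  In `M311`, `M2111`, `M221` these form disjoint chains `a1 < a2 < a3`,
`b`, `c`, resp. `a1 < a2`, `b`, `c`, `d`, resp. `j1 < m1`, `j2 < m2`, `k`, elements of different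
chains being incomparable.  In `ForkChain` they are `a`, `b`, `c`, `d`, `e` with `a < b`, `a < c`,
`d < e`; in `PentaPlus` they are `a`, `b`, `c`, `d`, `e` with `a < b < c`, `d < c`; there are no
other strict comparabilities among them.  Moreover `M221` is isomorphic to an interval `[H, G]`
in the subgroup lattice of a finite group `G`: the set `Set.Ici H` of all subgroups of `G`
containing `H`, ordered by inclusion.  The algebras exhibited in the proof are unary, with 11,
16, 9, 330 and 9 elements; their congruences are verified by kernel-checked certificates. -/
theorem result :
    Representable M311 ∧ Representable M2111 ∧ Representable M221 ∧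
      (∃ (G : Type) (_ : Group G) (_ : Finite G) (H : Subgroup G),
        Nonempty (M221 ≃o Set.Ici H)) ∧
      Representable ForkChain ∧ Representable PentaPlus :=
  ⟨m311_representable, m2111_representable, m221_representable, MI.m221_interval,
    W10.forkChain_representable, pentaPlus_representable⟩

end Vale.Agent.Results.P183.FiveLattices
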