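import Vale.Agent.Lib.P183.M311Alg
import Vale.Agent.Lib.P183.M2111Alg
import Vale.Agent.Lib.P183.M221Alg
import Vale.Agent.Lib.P183.MIMain
import Vale.Agent.Lib.P183.PentaPlusAlg
import Vale.Agent.Lib.P183.W10Main
import Vale.Agent.Lib.P183.ZMain
import Vale.Agent.Lib.P183.ZGroup
import Vale.Agent.Lib.P183.W22Main

namespace Vale.Agent.Results.P183.SevenLattices

open Vale.Agent.Lib.P183

/-- A collection of the statements of the other hand-ins of this folder.  Seven seven-element
lattices are representable: each is isomorphic to the lattice of all congruences of a finite
algebra.  Each has a least element `bot`, a greatest element `top` and five further elements,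
with the following strict comparabilities among the five and no others: `M311`: `a1 < a2 < a3`;
`M2111`: `a1 < a2`; `M221`: `j1 < m1`, `j2 < m2`; `ForkChain`: `a < b`, `a < c`, `d < e`;
`PentaPlus`: `a < b < c`, `d < c`; `Zigzag`: `p < q`, `p < r`, `s < q`; `Chord7`: `j1 < k < m2`,
`j1 < m1`, `j2 < m2`.  Moreover `M221` and `Zigzag` are each isomorphic to an interval `[H, G]`
in the subgroup lattice of a finite group `G`: the set `Set.Ici H` of all subgroups of `G`
containing `H`, ordered by inclusion. -/
theorem result :
    (Representable M311 ∧ Representable M2111 ∧ Representable M221 ∧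
      (∃ (G : Type) (_ : Group G) (_ : Finite G) (H : Subgroup G),
        Nonempty (M221 ≃o Set.Ici H)) ∧
      Representable ForkChain ∧ Representable PentaPlus) ∧
    Representable Zigzag ∧
    (∃ (G : Type) (_ : Group G) (_ : Finite G) (H : Subgroup G),
      Nonempty (Zigzag ≃o Set.Ici H)) ∧
    Representable Chord7 :=
  ⟨⟨m311_representable, m2111_representable, m221_representable, MI.m221_interval,
    W10.forkChain_representable, pentaPlus_representable⟩,
    Z.zigzag_representable, Z.zigzag_interval, W22.chord7_representable⟩

end Vale.Agent.Results.P183.SevenLattices
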