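import Vale.Agent.Lib.P183.ZMain

namespace Vale.Agent.Results.P183.ZigzagRepresentable

open Vale.Agent.Lib.P183

/-- The seven-element lattice `Zigzag` (least element `bot`, greatest element `top`, and five
further elements `p`, `s`, `q`, `r`, `t` with `p < q`, `p < r`, `s < q` and no other strict
comparabilities among them) is representable: it is isomorphic to the lattice of all congruences
of a finite algebra.  The algebra exhibited in the proof has 43680 elements and three unary
operations, all permutations; its congruences are verified by kernel-checked certificates. -/
theorem result : Representable Zigzag :=
  Z.zigzag_representable

end Vale.Agent.Results.P183.ZigzagRepresentable
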